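import Crest.Agent.N255.Dg.Wall
import Crest.Agent.N255.Lv.Top
import Crest.Agent.N255.Md.Da
import Crest.Agent.N255.En.Deg

/-!
# Row 255 (helper10): (L3) for the averaged levels
-/

set_option autoImplicit false
set_option linter.unusedSectionVars false
open Set Finsupp

noncomputable section

namespace Crest.Agent.N255.Dg

open Nv Tp Ce Ch Gs Uc Fa Ra En Lv

section gen
variable {S K F Nd Ed : Type} [DecidableEq S] [Group F] [MulAction F Nd] [MulAction F Ed]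
  [LinearOrder K] {M : Mir S K F Nd Ed}

/-- mirrors are finite -/
theorem sp_fin [DecidableEq Ed] (L : Loc M) (a : S) : {t | a ∈ M.sp t}.Finite := by
  by_cases h : ∃ e, a ∈ M.sp (M.tgt e)
  · obtain ⟨e, h⟩ := h
    refine (toFinite {M.tgt e, M.src e, M.src (L.op e)}).subset fun n hn => ?_
    by_cases t : M.ty n
    · obtain ⟨e', rfl⟩ := L.mid n t
      exact .inl (L.w1 _ _ _ hn h)
    by_cases c : n = M.src e
    · exact .inr (.inl c)
    obtain ⟨e', rfl, -, c2⟩ := L.w2 n _ _ t (M.ty_src e) c hn (L.wall e h)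
    rcases L.tgt_eq _ _ (L.w1 _ _ _ h (c2 (Finset.mem_inter.2 ⟨hn, L.wall e h⟩))) with rfl | rfl
    exacts [.inr (.inl rfl), .inr (.inr rfl)]
  · have t : ∀ n, a ∈ M.sp n → ¬M.ty n := fun n hn t => by
      obtain ⟨e, rfl⟩ := L.mid n t
      exact h ⟨e, hn⟩
    refine Set.Subsingleton.finite fun n hn n' hn' => by_contra fun c => ?_
    obtain ⟨e, -, -, c2⟩ := L.w2 n n' _ (t n hn) (t n' hn') c hn hn'
    exact h ⟨e, c2 (Finset.mem_inter.2 ⟨hn, hn'⟩)⟩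

theorem p2_congr [DecidableEq Ed] {A : Type} [AddCommGroup A] {e : Ed} {z : Finset S → ℤ} {n : ℕ}
    (h : Loc.Cyc M e z n) {φ ψ : S → S → S → A} (k : ∀ a ∈ M.sp (M.tgt e), ∀ b ∈ M.sp (M.tgt e),
      ∀ c ∈ M.sp (M.tgt e), M.Γ.Adj a b → M.Γ.Adj b c → φ a b c = ψ a b c) :
    Md.p2 M e z φ = Md.p2 M e z ψ :=
  Md.pA_congr fun t ht => Finset.sum_congr rfl fun a ha => Finset.sum_congr rfl fun b hb =>
    Finset.sum_congr rfl fun c hc => by
    have := (h.sup t ht).1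
    split_ifs with l
    · exact k a (this.2.2 ha) b (this.2.2 hb) c (this.2.2 hc) (this.1 ha hb fun e => l.1.ne (e ▸ rfl))
        (this.1 hb hc fun e => l.2.ne (e ▸ rfl))
    · rfl

theorem p2_cast (k : Type) [CommRing k] (e : Ed) (z : Finset S → ℤ) (φ : S → S → S → ℤ) :
    Md.p2 M e z (fun a b c => (φ a b c : k)) = (Md.p2 M e z φ : ℤ) := by
  simp [Md.p2, Md.pA, Md.s2]

variable [Finite K] {G' : Subgroup M.G} [G'.FiniteIndex] {T : Type} [TopologicalSpace T]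
  [MulAction G' T] [ContinuousConstSMul G' T] {K0 : Set T} {h : FD 4 G' K0}
  {L : Lab G' (M.ug.res G').X} {k : Type} [Field k] {ι : Type} [DecidableEq ι]
  [MulAction (FreeGroup ι) S] {w : Wl ι S} {F1 : Subgroup (FreeGroup ι)} [MulAction F1 T]
  {F' : Subgroup F} [MulAction F' T]

/-- the degree property for averaged levels -/
theorem dt_av (H : M.Cham) (hT : ∀ a, {t | a ∈ M.sp t}.Finite)
    (g : Mp (cell (M.ug.res G').fr k L) (h.sing k))
    (hc : LFc (m := 3) (M.ug.res G').fr fun x => (H.oc x.1 : k)) (E : Av G' F' T) (N : Lev w F1 T)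
    (hΓ : w.Γ = M.Γ) (hr : ∀ x, N.r x = E.rr x)
    (hl : ∀ d, ∃ R, ∀ x y, R < rad M (E.v x) → dl M (E.v x) y ≤ d → N.lab x ∈ Init y.1) :
    DT N (ori g hc) (dg H) := by
  classical
  obtain ⟨d, hd⟩ := deg_met H hT g hc E.o
  obtain ⟨d1, h1⟩ := orb_lip G' E.o (E.P.lf.finite_nonempty_inter_compact h.cpt)
  have h2 : ∀ p (γ : G'), γ⁻¹ • p ∈ K0 → dl M (γ.1.1 • E.o) (E.v p) ≤ d1 := fun p γ a => by
    simpa [Av.v, ob] using h1 γ (γ⁻¹ * E.g p) ⟨_, (E.P.mem_lab_smul γ⁻¹ _ p).2 (E.mem p), a⟩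
  obtain ⟨d2, h3⟩ := E.rr_near E.P.cpt
  have h4 := fun x => abs_le.1 (h3 x x (E.nr_self x) _ (E.v_mem x))
  obtain ⟨R, hR⟩ := hl (d1 + d)
  refine ⟨R + d2, fun R' r A hA ω hω hs C hC v z z1 z2 => ?_⟩
  obtain ⟨_, -, k1⟩ := hd N.lab {x | R' < N.r x} (⌈R'⌉₊ + d2 + d1) (fun p hp => by
    obtain ⟨γ, a⟩ := h.cov' p
    refine ⟨γ, a, fun y b => hR p y ?_ ((dl_tri' _ (γ.1.1 • E.o) _).trans
      (add_le_add ((dl_comm' _ _).trans_le (h2 p γ a)) b))⟩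
    have : R' < E.rr p := hr p ▸ hp
    exact_mod_cast (show (R : ℝ) < rad M (E.v p) by linarith [(h4 p).2])) (fun p hp => by
    obtain ⟨γ, a⟩ := h.cov' p
    have b : E.rr p ≤ R' := hr p ▸ not_lt.1 hp
    have c : rad M (E.v p) ≤ ⌈R'⌉₊ + d2 := by
      exact_mod_cast (show (rad M (E.v p) : ℝ) ≤ ⌈R'⌉₊ + d2 by linarith [(h4 p).1, Nat.le_ceil R'])
    exact ⟨γ, a, (rad_lip (E.v p) _).trans (add_le_add c ((dl_comm' _ _).trans_le (h2 p γ a)))⟩) A hA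
  exact ((k1 ω (fun x hx => (td_eq _ _).symm.trans (hω x (hΓ ▸ cq_of hx))) hs).2 N.cv N.cv_open
    N.cv_cover C hC v).2 z z1 z2

/-- **(L3)** for any mirror model with a local structure -/
theorem degA_loc [DecidableEq Ed] (Lo : Loc M) {H : M.Cham} (hH : H.or = Lo.or) {N : Lev w F1 T}
    {O : Ori k 3 T} (hD : DT N O (dg H)) (hΓ : w.Γ = M.Γ) (m : En.Md w) (u : ℤˣ)
    (hw : ∀ e, ∃ e', w.T e = M.sp (M.tgt e') ∧ (∀ a ∈ M.sp (M.src (Lo.op e')), a ∉ w.B (rev e)) ∧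
      (∀ a ∈ M.sp (M.src e'), a ∉ w.B e) ∧
      Md.p2 M e' (Lo.ω e') (fun a b c => m.mer e a b * m.mer (rev e) b c) = u) :
    N.DegA m O (Units.map (Int.castRingHom k).toMonoidHom u) 3 := by
  refine degA_of hD m _ fun e => ?_
  obtain ⟨e', a1, a2, a3, a4⟩ := hw e
  have := t2_coc (k := k) m e
  rw [Wl.Ct, a1, hΓ] at this
  rw [a1, dg_wal2 Lo hH e' a2 (fun a ha => (w.tri e a).imp (fun t => by rwa [a1] at t)
    fun t => t.resolve_left (a3 a ha)) this]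
  exact congrArg Neg.neg ((p2_cast k _ _ _).trans (congrArg Int.cast a4))

end gen

open Pt Da

variable {G' : Subgroup D.mir.G} [G'.FiniteIndex] {T : Type} [TopologicalSpace T]
  [MulAction G' T] [ContinuousConstSMul G' T] {K0 : Set T} {h : FD 4 G' K0}
  {L : Lab G' (D.mir.ug.res G').X} {k : Type} [Field k]
  {w : Wl (Fin 3) (St (Fin 3) (Fin 112) (Fin 16))} {F' : Subgroup (FreeGroup (Fin 3))} [MulAction F' T]

/-- **(L3)** for the model -/
theorem degA_D (g : Mp (cell (D.mir.ug.res G').fr k L) (h.sing k))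
    (hc : LFc (m := 3) (D.mir.ug.res G').fr fun x => (cham.oc x.1 : k)) (E : Av G' F' T)
    (N : Lev w F' T) (hΓ : w.Γ = D.Gt) (hT : ∀ e, w.T e = supE e) (hB : ∀ e, w.B e = A e)
    (hr : ∀ x, N.r x = E.rr x) (hl : ∀ x, N.lab x = E.lab x) (m : En.Md w)
    (hm : ∀ e, ∀ a ∈ supE e, ∀ b ∈ supE e, Md.Cl D.Gt a b → m.mer e a b = Md.sE e.k.2 a b) :
    N.DegA m (ori g hc) (-1) 3 := by
  have := degA_loc loc (H := cham) rfl (dt_av cham (sp_fin loc) g hc E N hΓ hr fun d =>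
    ⟨4 * d, fun x y a b => hl x ▸ lb_init' D b a⟩) hΓ m (-1) fun e => ⟨e, (hT e).trans
      (coe_sp (tgt e)).symm, fun a ha => ?_, fun a ha => ?_, ?_⟩
  · simpa using this
  · obtain ⟨b, rfl⟩ := mem_sp.1 ha
    exact hB _ ▸ cp_nmem_A (hs_hd e) b
  · obtain ⟨b, rfl⟩ := mem_sp.1 ha
    rw [hB, ← rev_rev e]
    exact cp_nmem_A (by simpa using hs_hd (rev e)) b
  · rw [p2_congr (loc.cω e) (ψ := fun a b c => Md.sE e.k.2 a b * Md.sE (!e.k.2) b c)
      fun a ha b hb c hc h1 h3 => ?_, Md.p2_sE]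
    · rfl
    rw [hm e a (mem_sp.1 ha) b (mem_sp.1 hb) (.inr h1), hm (rev e) b (supE_rev e ▸ mem_sp.1 hb) c
      (supE_rev e ▸ mem_sp.1 hc) (.inr h3)]
    rfl

theorem deg_D (g : Mp (cell (D.mir.ug.res G').fr k L) (h.sing k))
    (hc : LFc (m := 3) (D.mir.ug.res G').fr fun x => (cham.oc x.1 : k)) (E : Av G' F' T)
    (N : Lev w F' T) (hΓ : w.Γ = D.Gt) (hT : ∀ e, w.T e = supE e) (hB : ∀ e, w.B e = A e)
    (hr : ∀ x, N.r x = E.rr x) (hl : ∀ x, N.lab x = E.lab x) (m : En.Md w)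
    (hm : ∀ e, ∀ a ∈ supE e, ∀ b ∈ supE e, Md.Cl D.Gt a b → m.mer e a b = Md.sE e.k.2 a b) :
    N.Deg m (ori g hc) (-1) := (degA_D g hc E N hΓ hT hB hr hl m hm).deg (by norm_num)

end Crest.Agent.N255.Dg
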