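import Crest.Agent.N255.Dg.Top
import Crest.Agent.N255.Fa.Hyp

/-!
# Row 255 (helper10): the degree lemma with metric hypotheses
-/

set_option autoImplicit false
set_option linter.unusedSectionVars false
open Set Finsupp
open scoped Pointwise

noncomputable section

namespace Crest.Agent.N255.Dg

open Nv Ra Ce Ce.Mir Ce.Mir.Cell Gs Tp Uc Fa

variable {S K F Nd Ed : Type} [DecidableEq S] [Group F] [MulAction F Nd] [MulAction F Ed]
  {M : Mir S K F Nd Ed}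

/-- the gate in the core lies on all initial mirrors -/
theorem gate {x z : Vt M} (hz : z.1 = 1) (hd : dl M z x = rad M x) {a : S} (ha : a ∈ Init x.1) :
    a ∈ M.sp z.2 := by
  have e : Sep (dev M) (KV M univ) x = Sep (dev M) {z} x :=
    eq_of_subset_of_ncard_le (Sep.anti (singleton_subset_iff.2 (mem_core.2 hz)))
      ((sep_pt (Fa.lab M) z _ x rfl).2.trans hd.le) (sep_pt (Fa.lab M) z _ x rfl).1
  have key : ∀ n (u : Vt M), dl M z u = n → u.1 = 1 → a ∈ M.sp u.2 → a ∈ M.sp z.2 := fun n => by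
    induction n with
    | zero => intro u h _ k; rw [eq_of_dl h]; exact k
    | succ n ih =>
      intro u h hu k
      obtain ⟨b, u', h1, h2, h3⟩ := step' (Fa.lab M) h
      have i : ∀ s, s ∉ Init u.1 := fun s => by simp [hu, Init_eq]
      have r : ∀ s, s ∈ M.sp u.2 → hp (dev M) u (.inl s) = ra M s := fun s hs =>
        (hp_eq_ra (b := .inl s) (y := (u.1 * gen M.Γ s, u.2)) ⟨hs, rfl⟩).2 (by simp [hu])
      rcases b with s | b
      · rw [r s h1.1, sd_ra_ne (i s), hz] at h3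
        simp [Init_eq] at h3
      have h4 : sd (dev M) (hp (dev M) u (.inr b)) u ≠ sd (dev M) (hp (dev M) u (.inr b)) x := fun c => by
        have : hp (dev M) u (.inr b) ∈ Sep (dev M) {z} x := fun y hy => by rw [hy, ← c]; exact h3
        exact h3 (Sep.vert (e ▸ this) u (mem_core.2 hu) z (mem_core.2 hz))
      have h5 : (cg M).Adj (.inr b) (.inl a) :=
        adj_of_sep h4 (by rw [r a k]; exact (sd_ra_ne (i a)).2 ha) (by simp)
      exact ih u' h2 (h1.1.trans hu) (h1.2.elim (fun c => c.2 ▸ h5.2) fun c => c.2 ▸ h5.1)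
  exact key _ (bs M a) rfl rfl ((hmir M).Tne a).some_mem

theorem ball_fin' {B : Set (Vt M)} (hB : B.Finite) (R : ℕ) : {y | ∃ x ∈ B, dl M x y ≤ R}.Finite :=
  (hB.biUnion fun x _ => ball_fin x R).subset fun _ ⟨_, hx, h⟩ => mem_biUnion hx h

/-- the part of a neighbourhood of the core behind finitely many mirrors is finite -/
theorem fin_init (hT : ∀ a, {t | a ∈ M.sp t}.Finite) {A : Set S} (hA : A.Finite) (R : ℕ) :
    {x : Vt M | rad M x ≤ R ∧ ∃ a ∈ A, a ∈ Init x.1}.Finite := by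
  refine (ball_fin' ((hA.biUnion fun a _ => hT a).image fun t => ((1, t) : Vt M)) R).subset ?_
  rintro x ⟨h, a, ha, k⟩
  obtain ⟨z, hz, e⟩ := exists_dl univ x
  exact ⟨z, ⟨z.2, mem_biUnion ha (gate (mem_core.1 hz) e k), Prod.ext (mem_core.1 hz).symm rfl⟩,
    e.le.trans h⟩

variable [LinearOrder K]

/-- a vertex of a cell -/
def vt (y : M.Cell) : Vt M := (y.w, M.nd true y.c)

/-- the top vertex -/
def tv (y : M.Cell) : M.Cell :=
  ⟨top y.w y.τ, ∅, .inl (M.nd true y.c), by simp, by simp, by simp⟩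

theorem tv_le (y : M.Cell) : tv y ≤ y := ⟨Finset.empty_subset _, tle_nd _ _, y.has_top⟩

variable [Finite K] {G' : Subgroup M.G} [G'.FiniteIndex] (L : Lab G' (M.ug.res G').X)

theorem vc_vt {x y : M.Cell} (h : x ≤ y) : Vc (vt x) y := ⟨h.2.2, (tle_nd _ _).trans h.2.1⟩

/-- the label of a cell -/
def ll (y : M.Cell) : G' := L.l y.dim ⟨y, rfl⟩

theorem ll_fin {B : Set G'} (hB : B.Finite) : {y | ll L y ∈ B}.Finite :=
  ((finite_le_nat 4).biUnion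
    (t := fun n => (fun x : (M.ug.res G').X n => (x.1 : M.Cell)) '' {a | L.l n a ∈ B})
    fun n _ => (L.fin (M.ug.res G').fr n hB).image _).subset fun y hy =>
    mem_iUnion₂.2 ⟨y.dim, y.dim_le, ⟨y, rfl⟩, hy, rfl⟩

theorem ll_dl (o : Vt M) {B : Set G'} (hB : B.Finite) :
    ∃ d, ∀ y, ∀ x ≤ y, ∀ s ∈ B, dl M ((ll L y * s).1.1 • o) (vt x) ≤ d := by
  obtain ⟨d, hd⟩ := lab_near G' o L
  obtain ⟨d', hd'⟩ := orb_lip G' o hB
  refine ⟨d' + d, fun y x h s hs => (dl_tri' _ ((ll L y).1.1 • o) _).trans (add_le_add ?_ ?_)⟩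
  · rw [dl_comm']; exact hd' _ s hs
  · exact hd _ ⟨y, rfl⟩ _ (vc_vt h)

include L in
theorem vt_fin {B : Set (Vt M)} (hB : B.Finite) : {y : M.Cell | ∃ x ≤ y, vt x ∈ B}.Finite := by
  obtain ⟨o, -⟩ := (cvx (M := M) univ).ne
  obtain ⟨d, hd⟩ := ll_dl L o (finite_singleton 1)
  refine (ll_fin L (orb_fin G' o (ball_fin' hB d))).subset fun y ⟨x, h, k⟩ => ⟨_, k, ?_⟩
  rw [dl_comm']
  simpa using hd y x h 1 rfl

variable {k : Type} [Field k] (H : M.Cham) {T : Type} [TopologicalSpace T] [MulAction G' T]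
  [ContinuousConstSMul G' T] {K0 : Set T} {h : FD 4 G' K0} {L}

omit [MulAction G' T] [ContinuousConstSMul G' T] in
theorem cob_pb {n : ℕ} {lab : T → S} {Far : Set T} {ω : Tu S n → k} {σ : Sx (n + 1) T}
    (h1 : range σ ⊆ Far → linearCombination k ω (tb k n (single (vl lab σ) 1)) = 0)
    {A : Set S} (hA : ∀ x, ω x ≠ 0 → ∃ i, x i ∈ A)
    (h2 : ∀ p ∈ range σ, ∀ q ∈ range σ, p ∉ Far → q ∈ Far → lab q ∉ A) :
    cob k (pb lab Far ω) σ = 0 := by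
  by_cases e : range σ ⊆ Far
  · rw [← ev_sg (k := k) (cob k _), ← ev_bd, ev_pb lab ω (Sb.bd_mem (Sb.sg_mem (P := On Far) e)),
      ← tb_lb, lb_sg, h1 e]
  · obtain ⟨p, hp, hp'⟩ := not_subset.1 e
    rw [cob_apply]
    refine Finset.sum_eq_zero fun i _ => smul_eq_zero_of_right _ ?_
    rw [pb]
    split_ifs with c
    · by_contra c'
      obtain ⟨j, hj⟩ := hA _ c'
      exact h2 p hp _ (range_fc σ i ⟨_, rfl⟩) hp' (c ⟨_, rfl⟩) hj
    · rfl

include h in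
theorem dl_K0 (o : Vt M) : ∃ d, ∀ (p : T) (γ γ' : G'), γ⁻¹ • p ∈ K0 → γ'⁻¹ • p ∈ K0 →
    dl M (γ.1.1 • o) (γ'.1.1 • o) ≤ d := by
  obtain ⟨d, hd⟩ := orb_lip G' o (h.gm.shs_finite h.cpt h.cpt)
  refine ⟨d, fun p γ γ' a b => ?_⟩
  simpa using hd γ (γ⁻¹ * γ') ⟨_, a, by simpa [mul_smul] using b⟩

/-- **the degree lemma** -/
theorem deg_met (hT : ∀ a, {t | a ∈ M.sp t}.Finite) (g : Mp (cell (M.ug.res G').fr k L) (h.sing k))
    (hc : LFc (m := 3) (M.ug.res G').fr fun x => (H.oc x.1 : k)) (o : Vt M) :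
    ∃ d : ℕ, ∀ (lab : T → S) (Far : Set T) (R : ℕ),
      (∀ p ∈ Far, ∃ γ : G', γ⁻¹ • p ∈ K0 ∧ ∀ y, dl M (γ.1.1 • o) y ≤ d → lab p ∈ Init y.1) →
      (∀ p ∉ Far, ∃ γ : G', γ⁻¹ • p ∈ K0 ∧ rad M (γ.1.1 • o) ≤ R) → ∀ A : Set S, A.Finite →
      ∃ C0, IsCompact C0 ∧ ∀ ω : Tu S 3 → k, (∀ x : Tu S 4, M.Γ.IsClique (range x) →
        linearCombination k ω (tb k 3 (single x 1)) = 0) → (∀ x, ω x ≠ 0 → ∃ i, x i ∈ A) →
        (∀ C, C0 ⊆ C → cob k (pb lab Far ω) ∈ ((On Cᶜ).inf (Sm (FD.cvr G' K0))).van k k 4) ∧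
        ∀ 𝒰 : Set (Set T), (∀ V ∈ 𝒰, IsOpen V) → univ ⊆ ⋃₀ 𝒰 → ∀ C, IsCompact C →
          cob k (pb lab Far ω) ∈ ((On Cᶜ).inf (Sm 𝒰)).van k k 4 →
          deg 𝒰 (ori g hc) (pb lab Far ω) C = dg H ω ∧
          ∀ z ∈ (Sm 𝒰).ch k 4, (ori g hc).Fund C z → ev k (pb lab Far ω) (bd k z) = dg H ω := by
  choose B hB hg using g_mem g
  obtain ⟨d0, h0⟩ := dl_K0 (h := h) o
  obtain ⟨d, hd⟩ := ll_dl L o ((finite_le_nat 4).biUnion fun n _ => hB n)
  have hd' : ∀ y : M.Cell, ∀ p ∈ cor K0 (ll L y • B y.dim), ∀ γ : G', γ⁻¹ • p ∈ K0 → ∀ x ≤ y,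
      dl M (γ.1.1 • o) (vt x) ≤ d := fun y p hp γ hγ x hx => by
    obtain ⟨s, hs, rfl⟩ := hp γ hγ
    exact hd y x hx s (mem_biUnion y.dim_le hs)
  obtain ⟨d1, h1⟩ := ll_dl L o (finite_singleton 1)
  refine ⟨max d d0, fun lab Far R hl hR A hA => ?_⟩
  have hl' : ∀ p ∈ Far, ∀ γ : G', γ⁻¹ • p ∈ K0 → lab p ∈ Init (γ.1.1 • o).1 := fun p hp γ hγ => by
    obtain ⟨γ', a, b⟩ := hl p hp
    exact b _ ((h0 p γ' γ a hγ).trans (le_max_right _ _))
  have f := orb_fin G' o (fin_init hT hA (R + d0))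
  refine ⟨_, isCompact_sat f h.cpt, fun ω hω hs => ⟨fun C hC0 => ?_, fun 𝒰 u1 u2 C hC v => ?_⟩⟩
  · rintro σ ⟨a, _, ⟨γ, rfl⟩, b⟩
    have c : ∀ p ∈ range σ, γ⁻¹ • p ∈ K0 := fun p hp => by
      obtain ⟨_, rfl, e⟩ := b hp
      exact interior_subset e
    refine cob_pb (fun e => hω _ ((Init_clique (γ.1.1 • o).1).subset ?_)) hs
      fun p hp q hq p' q' e => ?_
    · rintro _ ⟨i, rfl⟩
      exact hl' _ (e ⟨_, rfl⟩) γ (c _ ⟨_, rfl⟩)
    · obtain ⟨γ', a1, a2⟩ := hR p p'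
      exact a hq (hC0 ⟨γ, ⟨(rad_lip _ _).trans (add_le_add a2 (h0 p γ' γ a1 (c p hp))), _, e,
        hl' q q' γ (c q hq)⟩, c q hq⟩)
  have e := deg_top H g hc u1 u2 (U := fun y => cor K0 (ll L y • B y.dim))
    (lab := lab) (Far := Far) (fun n x => by obtain ⟨y, rfl⟩ := x; exact hg _ _)
    (fun y p hp hp' => by
      obtain ⟨γ, a, b⟩ := hl p hp'
      exact b (vt (tv y)) ((hd' y p hp γ a _ (tv_le y)).trans (le_max_left _ _))) hω hs
    ((vt_fin L (fin_init hT hA (R + d + d1 + d1))).subset fun y ⟨⟨x, a1, a2⟩, a, a3, a4⟩ => by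
      obtain ⟨p, hp, hp'⟩ := not_subset.1 a2
      obtain ⟨γ, b1, b2⟩ := hR p hp'
      have c1 := hd' x p hp γ b1 x le_rfl
      have c2 := h1 y x a1 1 rfl
      have c3 := h1 y _ (tv_le y) 1 rfl
      have c4 := rad_lip (γ.1.1 • o) (vt x)
      have c5 := rad_lip (vt x) ((ll L y * 1).1.1 • o)
      have c6 := rad_lip ((ll L y * 1).1.1 • o) (vt (tv y))
      rw [dl_comm'] at c2
      exact ⟨_, tv_le y, by omega, a, a4, a3⟩) hC v
  exact ⟨e, fun z hz hz' => (deg_eq u1 u2 hC v hz hz').trans e⟩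

end Crest.Agent.N255.Dg
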