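import Crest.Agent.N255.Dg.Cell
import Crest.Agent.N255.Md.Mod
import Crest.Agent.N255.Nv.Ctg
import Crest.Agent.N255.Ch.Main

/-!
# Row 255 (helper36): the degree of the coboundary of a wall cochain, taken on one side of the wall
-/

set_option autoImplicit false
open Set Finsupp

noncomputable section

namespace Crest.Agent.N255.Dg

open Nv Ce Ch Md

section gen
variable {S K : Type} [DecidableEq S] [LinearOrder K] {Γ : SimpleGraph S} {col : S → K}
  {U : Finset S} {A : Type} [AddCommGroup A] {z : Finset S → ℤ}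

/-- Stokes with coefficients -/
theorem pA_stokes (hs : ∀ t, z t ≠ 0 → t ∈ Q Γ U ∅) (η : Finset S → A) :
    pA z U (dA col η) = pA (fun u => pe z (dq Γ col U (single u 1))) U η := by
  classical
  simp only [pe_pA (fun t h => (hs t h).2.2), pA, Finset.sum_smul]
  rw [Finset.sum_comm]
  refine Finset.sum_congr rfl fun v hv => ?_
  by_cases e : z v = 0
  · simp [e]
  have hv' := hs v e
  simp only [smul_eq_mul, mul_smul, ← Finset.smul_sum, dq_apply, if_pos hv'.1,
    Finset.inter_eq_left.2 hv'.2.2, Finset.sum_smul]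
  rw [Finset.sum_comm]
  refine congrArg _ (Finset.sum_congr rfl fun s _ => ?_)
  simp only [single_apply, ite_smul, one_smul, zero_smul, smul_ite, smul_zero, Finset.sum_ite_eq']
  exact (if_pos (Finset.mem_powerset.2 ((Finset.erase_subset _ _).trans hv'.2.2))).symm

variable {k : Type} [CommRing k] {n : ℕ}

theorem lc_Δ_ne {γ : Tu S n → k} {u : Finset S} (h : linearCombination k γ (Δ k col n u) ≠ 0) :
    ∃ x : Tu S n, StrictMono (col ∘ x) ∧ im x = u ∧ γ x ≠ 0 := by
  have h4 : ∃ x : Tu S n, StrictMono (col ∘ x) ∧ im x = u := by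
    by_contra e
    exact h (by rw [Δ, dif_neg e, map_zero])
  obtain ⟨x, hx, rfl⟩ := h4
  rw [Δ_im hx, linearCombination_single, one_smul] at h
  exact ⟨x, hx, rfl, h⟩

theorem td_srt (γ : Tu S n → k) {x : Tu S (n + 1)} (h : StrictMono (col ∘ x)) :
    td k γ x = dA col (fun u => linearCombination k γ (Δ k col n u)) (im x) := by
  rw [td_eq, ← Δ_im h, tb_Δ (by rw [coe_im]; rintro _ ⟨i, rfl⟩ _ ⟨j, rfl⟩ e; rw [h.injective e])
    (card_im h), map_sum, dA]
  refine Finset.sum_congr rfl fun s _ => ?_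
  have : s ∉ (im x).filter fun t => col t < col s := fun h => lt_irrefl _ (Finset.mem_filter.1 h).2
  rw [map_smul, eps, Finset.filter_erase, Finset.erase_eq_of_notMem this, zsmul_eq_mul]
  simp

end gen

variable {S K F Nd Ed : Type} [DecidableEq S] [Group F] [MulAction F Nd] [MulAction F Ed]
  [LinearOrder K] [DecidableEq Ed] {M : Mir S K F Nd Ed} {k : Type} [CommRing k]

/-- **the model number**: `γ` lives on the wall of `e`, `B` contains the open side beyond `e` -/
theorem dg_side (L : Loc M) (H : M.Cham) (hH : H.or = L.or) (e : Ed) {γ : Tu S 2 → k}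
    (hγ : ∀ v, γ v ≠ 0 → range v ⊆ M.sp (M.tgt e)) {B : Set S} (h1 : ∀ a ∈ M.sp (M.src e), a ∉ B)
    (h2 : ∀ a ∈ M.sp (M.src (L.op e)), a ∈ M.sp (M.tgt e) ∨ a ∈ B) {om : Tu S 3 → k}
    (h3 : ∀ x, (∀ i, x i ∉ B) → om x = td k γ x) (h4 : ∀ x, om x ≠ 0 → ∀ i, x i ∉ B) :
    dg H om = -p2 M e (L.ω e) fun a b c => γ ![a, b, c] := by
  classical
  have hn := M.ty_src e
  have W := L.wal _ hn
  let a : Finset S → k := fun u => linearCombination k γ (Δ k M.col 2 u)
  have e1 : dg H om = pA (L.o (M.src e)) (M.sp (M.src e)) (dA M.col a) := by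
    rw [dg, finsum_mem_eq_sum_of_inter_support_eq
      (t := ((M.sp (M.src e)).powerset.filter fun τ => L.o (M.src e) τ ≠ 0).image fun τ => (τ, M.src e)),
      Finset.sum_image (fun _ _ _ _ h => congrArg Prod.fst h), pA, Finset.sum_filter]
    · refine Finset.sum_congr rfl fun τ hτ => ?_
      split_ifs with c
      · obtain ⟨q1, q2⟩ := W.o_sup τ c
        obtain ⟨x, hx, rfl⟩ := exists_srt (n := 3) (col := M.col)
          (fun s hs t ht e => by_contra fun n => M.col_ne s t (q1.1 hs ht n) e) q2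
        rw [hH, congrFun (L.or_vtx hn), Δ_im hx, linearCombination_single, one_smul,
          h3 x fun i => h1 _ (q1.2.2 (mem_im x i)), td_srt γ hx, zsmul_eq_mul]
      · rw [not_not.1 c, zero_smul]
    · ext ⟨τ, t⟩
      refine and_congr_left fun hp => ⟨fun hv => ?_, fun hv => ?_⟩
      · have p1 : H.or (τ, .inl t) ≠ 0 := fun h => hp (by simp [h])
        obtain ⟨x, hx, rfl, hx0⟩ := lc_Δ_ne (right_ne_zero_of_mul hp)
        rw [hH] at p1
        have ht : ¬M.ty t := fun h => p1 (congrFun (L.or_mid h) _)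
        have nB := h4 x hx0
        rw [h3 x nB, td_apply] at hx0
        obtain ⟨i, -, hi⟩ := Finset.exists_ne_zero_of_sum_ne_zero hx0
        have hs : x (i.succAbove 0) ∈ M.sp (M.tgt e) := hγ _ (right_ne_zero_of_smul hi) ⟨0, rfl⟩
        obtain rfl : t = M.src e := by
          by_contra c
          obtain ⟨e', s1, s2, s3⟩ := L.w2 _ t _ hn ht (Ne.symm c) (L.wall e hs) (hv.2.1 (mem_im x _))
          rcases L.tgt_eq e e' (L.w1 e e' _ hs (s3 (Finset.mem_inter.2
            ⟨L.wall e hs, hv.2.1 (mem_im x _)⟩))) with rfl | rfl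
          · obtain ⟨u, hu, hω⟩ := (L.tor e').top (im x) ⟨hv.1, Finset.empty_subset _, fun s hs => by
              obtain ⟨j, -, rfl⟩ := Finset.mem_image.1 hs
              exact (h2 _ (s2 ▸ hv.2.1 hs)).resolve_right (nB j)⟩
            have := Finset.card_le_card hu.2.1
            rw [card_im hx, ((L.tor e').ω_sup u (by rcases hω with h | h <;> simp [h])).2] at this
            omega
          · exact L.src_op e s1
        exact Finset.mem_coe.2 (Finset.mem_image_of_mem _ (Finset.mem_filter.2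
          ⟨Finset.mem_powerset.2 hv.2.1, fun h => p1 ((congrFun (L.or_vtx hn) _).trans h)⟩))
      · obtain ⟨τ', hτ, h⟩ := Finset.mem_image.1 hv
        obtain ⟨rfl, rfl⟩ := Prod.mk.inj h
        have := (W.o_sup _ (Finset.mem_filter.1 hτ).2).1
        exact ⟨this.1, this.2.2, Finset.disjoint_empty_right _⟩
  have e2 : pA (L.ω e) (M.sp (M.src e)) a = p2 M e (L.ω e) fun a b c => γ ![a, b, c] := by
    rw [pA_mono (fun t h => ((L.tor e).ω_sup t h).1.2.2) (L.wall e), p2]
    refine pA_congr fun t ht => ?_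
    obtain ⟨x, -, y, -, z, -, -, -, -, l1, l2, rfl⟩ := X3 M.col_ne (mem_Xn.2 ((L.tor e).ω_sup t ht))
    have hx : StrictMono (M.col ∘ (![x, y, z] : Tu S 2)) :=
      Fin.strictMono_iff_lt_succ.2 fun i => by fin_cases i <;> assumption
    have : im (![x, y, z] : Tu S 2) = {x, y, z} := by
      rw [← Finset.coe_inj, coe_im]; ext; simp [Matrix.range_cons, Matrix.range_empty]; tauto
    rw [s2_tri _ l1 l2]
    change linearCombination k γ _ = _
    rw [← this, Δ_im hx, linearCombination_single, one_smul]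
  rw [e1, pA_stokes (Γ := M.Γ) (fun t h => (W.o_sup t h).1), ← e2, pA, pA, ← Finset.sum_neg_distrib]
  refine Finset.sum_congr rfl fun u _ => ?_
  by_cases c : a u = 0
  · simp [c]
  obtain ⟨x, hx, rfl, hx0⟩ := lc_Δ_ne c
  have hT : im x ⊆ M.sp (M.tgt e) := by rw [← Finset.coe_subset, coe_im]; exact hγ x hx0
  by_cases q : M.Γ.IsClique (im x : Set S)
  · rw [eq_neg_of_add_eq_zero_left (W.st_bd e rfl _ ⟨q, Finset.empty_subset _, hT⟩), neg_smul]
  · rw [show L.ω e (im x) = 0 from by_contra fun h => q ((L.tor e).ω_sup _ h).1.1,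
      show dq M.Γ M.col (M.sp (M.src e)) (single (im x) 1) = 0 from ?_]
    · simp
    ext t
    by_contra h
    obtain ⟨hc, s, -, -, rfl⟩ := dq_ne h
    exact q (hc.subset (by simp))

/-- the model number for a product of integer cochains -/
theorem dg_int (L : Loc M) (H : M.Cham) (hH : H.or = L.or) (e : Ed) (f : S → S → S → ℤ) {γ : Tu S 2 → k}
    (hγ : ∀ v, γ v ≠ 0 → range v ⊆ M.sp (M.tgt e))
    (hf : ∀ v, range v ⊆ M.sp (M.tgt e) → γ v = f (v 0) (v 1) (v 2)) {B : Set S}
    (h1 : ∀ a ∈ M.sp (M.src e), a ∉ B) (h2 : ∀ a ∈ M.sp (M.src (L.op e)), a ∈ M.sp (M.tgt e) ∨ a ∈ B)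
    {om : Tu S 3 → k} (h3 : ∀ x, (∀ i, x i ∉ B) → om x = td k γ x) (h4 : ∀ x, om x ≠ 0 → ∀ i, x i ∉ B) :
    dg H om = -(p2 M e (L.ω e) f : ℤ) := by
  rw [dg_side L H hH e hγ h1 h2 h3 h4, p2, p2, pA, pA, Int.cast_sum]
  refine congrArg _ (Finset.sum_congr rfl fun t ht => ?_)
  rw [smul_eq_mul, Int.cast_mul, zsmul_eq_mul]
  simp only [s2, Int.cast_sum, Int.cast_ite, Int.cast_zero]
  refine congrArg _ (Finset.sum_congr rfl fun a ha => Finset.sum_congr rfl fun b hb =>
    Finset.sum_congr rfl fun c hc => if_congr Iff.rfl (hf _ ?_) rfl)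
  have := Finset.mem_powerset.1 ht
  rintro _ ⟨i, rfl⟩
  fin_cases i
  exacts [this ha, this hb, this hc]

end Crest.Agent.N255.Dg

end
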