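import Crest.Agent.N255.Dg.Cell
import Crest.Agent.N255.Gs.Deg
import Crest.Agent.N255.Ce.Res

/-!
# Row 255 (helper10): the degree of a cocycle of the nerve pulled back to the far end of the manifold
-/

set_option autoImplicit false
set_option linter.unusedSectionVars false
open Set Finsupp

noncomputable section

namespace Crest.Agent.N255.Dg

open Nv Ra Ce Ce.Mir Ce.Mir.Cell Gs Tp Uc

variable {S K F Nd Ed : Type} [DecidableEq S] [Group F] [MulAction F Nd] [MulAction F Ed]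
  [LinearOrder K] [Finite K] {M : Mir S K F Nd Ed} {G' : Subgroup M.G} [G'.FiniteIndex]

section ring
variable {k : Type} [CommRing k]

variable (G' k) in
/-- restriction to the cells of dimension `n` -/
def πk (n : ℕ) : (M.Cell →₀ k) →ₗ[k] ((M.ug.res G').X n →₀ k) :=
  lcomapDomain (fun x => x.1) Subtype.val_injective

theorem πk_single {n : ℕ} (x : (M.ug.res G').X n) : πk G' k n (single x.1 1) = single x 1 :=
  comapDomain_single _ _ _ _

theorem πk_Dk {n : ℕ} (x : (M.ug.res G').X (n + 1)) :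
    πk G' k n (Dk M k (single x.1 1)) = bc k ((M.ug.res G').fr.d n) (single x 1) := by
  ext z
  rw [bc_apply]
  exact (Dk_apply x.1 z.1).trans (congrArg (Int.cast : ℤ → k) ((M.ug.res G').d_single n x z).symm)

/-- a vertex of a cell -/
def vx (y : M.Cell) : M.Cell := ⟨y.w, ∅, .inl (M.nd true y.c), by simp, by simp, by simp⟩

theorem vx_le (y : M.Cell) : vx y ≤ y := ⟨Finset.empty_subset _, tle_nd _ _, has_self y⟩

theorem car_vx (y : M.Cell) : car (vx y) = Init y.w := by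
  rw [car, top_eq_self (by simp [vx])]; rfl

end ring

variable {k : Type} [Field k] (H : M.Cham)

variable (G') in
/-- the fundamental class is a locally finite cycle -/
theorem lfc (k : Type) [Field k] : LFc (m := 3) (M.ug.res G').fr fun x => (H.oc x.1 : k) := fun φ =>
  eq_of (F := linearCombination k (fun x : (M.ug.res G').X 4 => (H.oc x.1 : k)) ∘ₗ bc k ((M.ug.res G').fr.de 3)) (F' := 0)
    (s := univ) (fun x _ => by
      have := congrArg (Int.cast : ℤ → k) (H.oc_de (M.ug.res G').de_apply x.1)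
      rw [← (M.ug.res G').ι_single, ← (M.ug.res G').ι_de, (M.ug.res G').lc_ι] at this
      rw [LinearMap.comp_apply, bc_single, linearCombination_apply, rd,
        mapRange.addMonoidHom_apply, sum_mapRange_index (by simp)]
      simpa [linearCombination_apply, Finsupp.sum] using this) (by simp)

variable {T : Type} [TopologicalSpace T] [MulAction G' T] [ContinuousConstSMul G' T] {K0 : Set T}
  {h : FD 4 G' K0} {L : Lab G' (M.ug.res G').X}

open Classical in
/-- the pull back of `ω` by the labels on `Far`, zero on the other simplices -/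
def pb {n : ℕ} {A : Type} [Zero A] (lab : T → S) (Far : Set T) (ω : Tu S n → A) : Co A n T :=
  fun σ => if range σ ⊆ Far then ω (vl lab σ) else 0

omit [MulAction G' T] [ContinuousConstSMul G' T] in
theorem ev_pb {n : ℕ} (lab : T → S) {Far : Set T} (ω : Tu S n → k) {c : Ch k n T}
    (hc : c ∈ (On Far).ch k n) : ev k (pb lab Far ω) c = linearCombination k ω (lb k lab n c) :=
  eq_of (F := ev k (pb lab Far ω)) (F' := linearCombination k ω ∘ₗ lb k lab n) (fun σ hσ => by
    rw [LinearMap.comp_apply, lb_sg, linearCombination_single, one_smul, ev_sg]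
    exact if_pos hσ) hc

/-- **the degree** -/
theorem deg_top (g : Mp (cell (M.ug.res G').fr k L) (h.sing k))
    (hc : LFc (m := 3) (M.ug.res G').fr fun x => (H.oc x.1 : k)) {𝒰 : Set (Set T)} (hU : ∀ V ∈ 𝒰, IsOpen V)
    (hU' : univ ⊆ ⋃₀ 𝒰) {lab : T → S} {Far : Set T} {U : M.Cell → Set T}
    (hg : ∀ n (x : (M.ug.res G').X n), g.f n (single x 1) ∈ (On (U x.1)).ch k n)
    (hl : ∀ y, ∀ p ∈ U y, p ∈ Far → lab p ∈ car y) {ω : Tu S 3 → k}
    (hω : ∀ x : Tu S 4, M.Γ.IsClique (range x) → linearCombination k ω (tb k 3 (single x 1)) = 0)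
    {A : Set S} (hA : ∀ x, ω x ≠ 0 → ∃ i, x i ∈ A)
    (hf : {y | (∃ x ≤ y, ¬U x ⊆ Far) ∧ (car y ∩ A).Nonempty}.Finite) {C : Set T} (hC : IsCompact C)
    (hv : cob k (pb lab Far ω) ∈ ((On Cᶜ).inf (Sm 𝒰)).van k k 4) :
    deg 𝒰 (ori g hc) (pb lab Far ω) C = dg H ω := by
  classical
  let r : ∀ n, (M.Cell →₀ k) →ₗ[k] Ch k n T := fun n => Sml.rho k 𝒰 n ∘ₗ g.f n ∘ₗ πk G' k n
  have r1 : ∀ n (x : (M.ug.res G').X n), r n (single x.1 1) = Sml.rho k 𝒰 n (g.f n (single x 1)) := fun n x => by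
    simp only [r, LinearMap.comp_apply, πk_single]
  have r2 : ∀ n y, y.dim = n → r n (single y 1) ∈ (On (U y)).ch k n := fun n y hy =>
    r1 n ⟨y, hy⟩ ▸ Sml.rho_mem k 𝒰 _ (hg n ⟨y, hy⟩)
  have r3 : ∀ n (x : (M.ug.res G').X (n + 1)), bd k (r (n + 1) (single x.1 1)) = r n (Dk M k (single x.1 1)) :=
    fun n x => by
      rw [r1, Sml.bd_rho, bd_g]
      simp only [r, LinearMap.comp_apply, πk_Dk]
  have r4 : ∀ y, y.dim = 0 → aug k (r 0 (single y 1)) = 1 := fun y hy => by
    rw [r1 0 ⟨y, hy⟩, Sml.rho_zero]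
    exact (g.au _).trans (au_single _ _)
  let N : Set M.Cell := {y | ∀ x ≤ y, U x ⊆ Far}
  have th : Th N fun n => lb k lab n ∘ₗ r n :=
    { cl := fun y hy x hx z hz => hy z (hz.trans hx)
      ne := fun y hy e => by
        have h1 := r2 0 (vx y) rfl
        rw [show U (vx y) = ∅ from eq_empty_of_forall_notMem fun p hp => by
          simpa [car_vx, e, Init_eq] using hl _ p hp (hy _ (vx_le y) hp)] at h1
        simpa [eq_zero_of_ch_empty h1] using r4 (vx y) rfl
      car := fun n y hy hd => mem_of (F := lb k lab n) (fun σ hσ => by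
        rw [lb_sg]
        refine single_mem_supported k 1 ?_
        rintro _ ⟨i, rfl⟩
        exact hl y _ (hσ ⟨_, rfl⟩) (hy y le_rfl (hσ ⟨_, rfl⟩))) (r2 n y hd)
      au := fun y _ hd => by rw [LinearMap.comp_apply, ta_lb, r4 y hd]
      ch := fun n y _ hd => by rw [LinearMap.comp_apply, tb_lb, r3 n ⟨y, hd⟩]; rfl }
  have nN : ∀ y, y ∉ N → ∃ x ≤ y, ¬U x ⊆ Far := fun y hy => by simpa [N] using hy
  rw [← deg_cell H th hω hA (hf.subset fun y hy => ⟨nN y hy.1, hy.2⟩) (ev k (pb lab Far ω) ∘ₗ r 3)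
    (fun y hy hd => ev_pb lab ω (ch_mono (hy y le_rfl) (r2 3 y hd)))
    (hf.subset fun y hy => ⟨nN y hy.1, ?_⟩)]
  · have e : ∀ x : (M.ug.res G').X 4, ev k (sr 𝒰 k (cob k (pb lab Far ω))) (g.f 4 (single x 1)) =
        ev k (pb lab Far ω) (r 3 (Dk M k (single x.1 1))) := fun x => by
      rw [ev_sr, ← r1, ← ev_bd, r3]
    rw [deg, ori_ev g hc hC ((ori g hc).fund_μ hC) (sr_van hU hU' hv) (cob_sr_cob _)
      (F := (mt_finite g 4 hC).toFinset) (by simp),
      finsum_eq_sum_of_support_subset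
        (s := (mt_finite g 4 hC).toFinset.image fun x : (M.ug.res G').X 4 => (x.1 : M.Cell))]
    · refine Eq.trans ?_ (Finset.sum_image fun _ _ _ _ e => Subtype.ext e).symm
      exact Finset.sum_congr rfl fun x _ => by rw [e]; rfl
    · intro y hy
      have hd : y.dim = 4 := H.oc_dim y fun z => left_ne_zero_of_mul hy (by rw [z, Int.cast_zero])
      refine Finset.mem_coe.2 (Finset.mem_image.2 ⟨⟨y, hd⟩, (Finite.mem_toFinset _).2 fun z => ?_, rfl⟩)
      exact right_ne_zero_of_mul hy ((e ⟨y, hd⟩).symm.trans (Sb.ev_eq_zero (sr_van hU hU' hv) z))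
  · by_contra e
    refine hy.2.2 (Sb.ev_eq_zero (P := On (U y)) (fun σ hσ => ?_) (r2 3 y hy.2.1))
    rw [pb]
    split_ifs with h1
    · by_contra h2
      obtain ⟨i, hi⟩ := hA _ h2
      exact e ⟨_, hl y _ (hσ ⟨_, rfl⟩) (h1 ⟨_, rfl⟩), hi⟩
    · rfl

/-- the degree on a small fundamental chain -/
theorem ev_top (g : Mp (cell (M.ug.res G').fr k L) (h.sing k))
    (hc : LFc (m := 3) (M.ug.res G').fr fun x => (H.oc x.1 : k)) {𝒰 : Set (Set T)} (hU : ∀ V ∈ 𝒰, IsOpen V)
    (hU' : univ ⊆ ⋃₀ 𝒰) {lab : T → S} {Far : Set T} {U : M.Cell → Set T}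
    (hg : ∀ n (x : (M.ug.res G').X n), g.f n (single x 1) ∈ (On (U x.1)).ch k n)
    (hl : ∀ y, ∀ p ∈ U y, p ∈ Far → lab p ∈ car y) {ω : Tu S 3 → k}
    (hω : ∀ x : Tu S 4, M.Γ.IsClique (range x) → linearCombination k ω (tb k 3 (single x 1)) = 0)
    {A : Set S} (hA : ∀ x, ω x ≠ 0 → ∃ i, x i ∈ A)
    (hf : {y | (∃ x ≤ y, ¬U x ⊆ Far) ∧ (car y ∩ A).Nonempty}.Finite) {C : Set T} (hC : IsCompact C)
    (hv : cob k (pb lab Far ω) ∈ ((On Cᶜ).inf (Sm 𝒰)).van k k 4) {z : Ch k 4 T}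
    (hs : z ∈ (Sm 𝒰).ch k 4) (hz : (ori g hc).Fund C z) :
    ev k (pb lab Far ω) (bd k z) = dg H ω :=
  (deg_eq hU hU' hC hv hs hz).trans (deg_top H g hc hU hU' hg hl hω hA hf hC hv)

end Crest.Agent.N255.Dg
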