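import Crest.Agent.N255.Dg.Met
import Crest.Agent.N255.En.Defs
import Crest.Agent.N255.Md.Mod
import Crest.Agent.N255.Ch.Main

/-!
# Row 255 (helper10): the degree of the labelling on the windows
-/

set_option autoImplicit false
set_option linter.unusedSectionVars false
open Set Finsupp

noncomputable section

namespace Crest.Agent.N255.Dg

open Nv Tp

section comb
variable {S k : Type} [CommRing k] {n : ℕ} {R : S → S → Prop} {T B : Set S} {γ : Tu S n → k}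

open Classical in
/-- extension by zero -/
def z0 (T : Set S) (γ : Tu S n → k) : Tu S n → k := fun v => if range v ⊆ T then γ v else 0

open Classical in
/-- the part of the coboundary of the extension by zero on the side `B` -/
def om (T B : Set S) (γ : Tu S n → k) : Tu S (n + 1) → k :=
  fun v => if ∃ i, v i ∈ B then td k (z0 T γ) v else 0

theorem z0_ne {v : Tu S n} (h : z0 T γ v ≠ 0) : range v ⊆ T := by_contra fun e => h (if_neg e)

theorem om_ne {v : Tu S (n + 1)} (h : om T B γ v ≠ 0) : (∃ i, v i ∈ B) ∧ ∃ i, v i ∈ T := by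
  have h1 : ∃ i, v i ∈ B := by_contra fun e => h (if_neg e)
  rw [om, if_pos h1, td_apply] at h
  obtain ⟨i, -, h⟩ := Finset.exists_ne_zero_of_sum_ne_zero h
  exact ⟨h1, _, z0_ne (right_ne_zero_of_smul h) ⟨0, rfl⟩⟩

theorem om_eq (hγ : ∀ v ∈ CT R T (n + 1), td k γ v = 0) {v : Tu S (n + 1)}
    (h : v ∈ CT R (T ∪ B) (n + 1)) : om T B γ v = td k (z0 T γ) v := by
  rw [om]
  split_ifs with e
  · rfl
  have h1 : range v ⊆ T := by
    rintro _ ⟨i, rfl⟩
    exact (h.1 ⟨i, rfl⟩).resolve_right fun b => e ⟨i, b⟩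
  rw [← hγ v ⟨h1, h.2⟩, td_apply, td_apply]
  exact Finset.sum_congr rfl fun i _ => by rw [z0, if_pos ((range_tf v i).trans h1)]

theorem om_coc (hγ : ∀ v ∈ CT R T (n + 1), td k γ v = 0) (hB : ∀ a b, R a b → a ∈ B → b ∈ T ∪ B)
    {v : Tu S (n + 2)} (h : Cq R (range v)) : td k (om T B γ) v = 0 := by
  by_cases e : ∃ i, v i ∈ B
  · obtain ⟨i, e⟩ := e
    have h1 : v ∈ CT R (T ∪ B) (n + 2) := ⟨fun b hb => hB _ b (h _ ⟨i, rfl⟩ b hb) e, h⟩
    refine Eq.trans ?_ (congrFun (td_td (k := k) (z0 T γ)) v)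
    rw [td_apply, td_apply]
    exact Finset.sum_congr rfl fun j _ => by rw [om_eq hγ (CT.tf h1 j)]
  · rw [td_apply]
    refine Finset.sum_eq_zero fun j _ => smul_eq_zero_of_right _ (if_neg fun ⟨_, c⟩ => e ⟨_, c⟩)

end comb

section lev
open En Pt Lv

variable {ι S : Type} [DecidableEq ι] [MulAction (FreeGroup ι) S] {w : Wl ι S}
  {F : Subgroup (FreeGroup ι)} {X : Type} [TopologicalSpace X] [MulAction F X] {k : Type} [Field k]

/-- the degree property of the labelling -/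
def DT (N : Lev w F X) (O : Ori k 3 X) (dgf : (Tu S 3 → k) → k) : Prop :=
  ∃ R1 : ℝ, ∀ R, R1 ≤ R → ∀ A : Set S, A.Finite → ∀ ω : Tu S 3 → k,
    (∀ v : Tu S 4, Cq (Cl w.Γ) (range v) → td k ω v = 0) → (∀ x, ω x ≠ 0 → ∃ i, x i ∈ A) →
    ∀ C, IsCompact C → cob k (pb N.lab {x | R < N.r x} ω) ∈ (N.Sb Cᶜ).van k k 4 →
    ∀ z ∈ (Sm N.cv).ch k 4, O.Fund C z → ev k (pb N.lab {x | R < N.r x} ω) (bd k z) = dgf ω

theorem t2_coc (M : Md w) (e : Ed ι) :
    ∀ v ∈ w.Ct (w.T e) 3, td k (t2 k (M.mer e) (M.mer (rev e))) v = 0 := fun v hv => by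
  have a : ∀ i, v i ∉ w.B e := fun i => w.TB e _ (hv.1 ⟨i, rfl⟩)
  have b : ∀ i, v i ∉ w.B (rev e) := fun i => w.TB _ _ (w.T_rev e ▸ hv.1 ⟨i, rfl⟩)
  have c : ∀ i j, Cl w.Γ (v i) (v j) := fun i j => hv.2 _ ⟨i, rfl⟩ _ ⟨j, rfl⟩
  rw [td2]
  simp only [t2, Matrix.cons_val_zero, Matrix.cons_val_one, Matrix.cons_val]
  rw [M.mer_add e _ _ _ (a 0) (a 1) (a 2) (c _ _) (c _ _) (c _ _),
    M.mer_add (rev e) _ _ _ (b 1) (b 2) (b 3) (c _ _) (c _ _) (c _ _)]
  push_cast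
  ring

/-- **(L3)** from the degree property -/
theorem degA_of {N : Lev w F X} {O : Ori k 3 X} {dgf : (Tu S 3 → k) → k} (hD : DT N O dgf) (M : Md w)
    (u : kˣ) (hu : ∀ e, dgf (om (w.T e) (w.B (rev e)) (t2 k (M.mer e) (M.mer (rev e)))) = -u) :
    N.DegA M O u 3 := by
  classical
  intro e l l' h0 hl h1
  obtain ⟨R1, hD⟩ := hD
  obtain ⟨D, hL⟩ := N.r_lip
  obtain ⟨R2, s1⟩ := N.lab_side (1 - l') (by linarith)
  obtain ⟨R3, s2⟩ := N.lab_side l h0
  let R := max (max R1 N.R0) (max R2 R3)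
  have r1 : R1 ≤ R := (le_max_left _ _).trans (le_max_left _ _)
  have r0 : N.R0 ≤ R := (le_max_right _ _).trans (le_max_left _ _)
  have r2 : R2 ≤ R := (le_max_left _ _).trans (le_max_right _ _)
  have r3 : R3 ≤ R := (le_max_right _ _).trans (le_max_right _ _)
  refine ⟨R + max D 0, fun R' hR C z₁ z₂ σ c hC hK hz a1 a2 eb a3 a4 a5 => ?_⟩
  set γ := t2 k (M.mer e) (M.mer (rev e))
  let Far : Set X := {x | R < N.r x}
  have hγ := t2_coc (k := k) M e
  have b1 : ∀ x ∈ Far, N.s e x < l' → N.lab x ∈ w.T e ∪ w.B (rev e) := fun x hx h =>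
    (w.tri e _).elim .inl fun t => .inr (t.resolve_left (s1 e x (r2.trans_lt hx) (by linarith)))
  have b2 : ∀ x ∈ Far, l < N.s e x → N.lab x ∉ w.B (rev e) := fun x hx h =>
    s2 (rev e) x (r3.trans_lt hx) (by rw [N.s_rev]; linarith)
  have b3 : ∀ {n} (τ : Sx n X), τ ∈ (Sm N.cv).S n → range τ ⊆ Far → Cq (Cl w.Γ) (range (vl N.lab τ)) := by
    rintro n τ ⟨U, hU, h⟩ h' _ ⟨i, rfl⟩ _ ⟨j, rfl⟩
    exact N.lab_cl U hU _ (h ⟨_, rfl⟩) _ (h ⟨_, rfl⟩) (r0.trans_lt (h' ⟨_, rfl⟩))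
      (r0.trans_lt (h' ⟨_, rfl⟩))
  have b4 : ∀ {n} (τ : Sx n X), τ ∈ (N.Sb Cᶜ).S n → ∀ p ∈ range τ, ∀ q ∈ range τ, p ∉ Far → q ∈ Far →
      N.lab q ∉ w.T e := by
    rintro n τ ⟨h, U, hU, h'⟩ p hp q hq p' q' t
    have c1 := hL U hU p (h' hp) q (h' hq)
    have c2 := abs_le.1 (N.lab_T e q (r0.trans_lt q') t)
    have c3 : N.r p ≤ R := not_lt.1 p'
    have := le_max_left D 0
    exact h hq (hK ⟨by linarith, by linarith, by linarith⟩)
  have hω : ∀ v : Tu S 4, Cq (Cl w.Γ) (range v) → td k (om (w.T e) (w.B (rev e)) γ) v = 0 :=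
    fun v hv => om_coc hγ (fun a b h ha => (w.tri e b).elim .inl fun t => .inr
      (t.resolve_left fun t => w.BB e b a t ha h.symm)) hv
  have key := hD R r1 _ (w.T_fin e) _ hω (fun x h => (om_ne h).2) C hC (fun τ hτ =>
    cob_pb (fun h => (td_eq _ _).symm.trans (hω _ (b3 τ hτ.2 h))) (fun x h => (om_ne h).2) (b4 τ hτ))
    _ (add_mem (Sb.ch_mono Sb.inf_le_right a1) (Sb.ch_mono Sb.inf_le_right a2)) hz
  have v : pb N.lab Far (om (w.T e) (w.B (rev e)) γ) ∈ (On {x | l < N.s e x}).van k k 3 :=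
    fun τ hτ => by
      rw [pb]
      split_ifs with h
      · exact if_neg fun ⟨i, t⟩ => b2 _ (h ⟨_, rfl⟩) (hτ ⟨_, rfl⟩) t
      · rfl
  have v2 : pb N.lab Far (om (w.T e) (w.B (rev e)) γ) - cob k (pb N.lab Far (z0 (w.T e) γ)) ∈
      (N.Sb {x | x ∉ C ∧ N.s e x < l'}).van k k 3 := fun τ hτ => by
    rw [Pi.sub_apply, sub_eq_zero, pb]
    split_ifs with h
    · rw [← ev_sg (k := k) (cob k _), ← ev_bd, ev_pb _ _ (Sb.bd_mem (Sb.sg_mem (P := On Far) h)),
        ← tb_lb, lb_sg, ← td_eq]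
      refine om_eq hγ ⟨?_, b3 τ hτ.2 h⟩
      rintro _ ⟨i, rfl⟩
      exact b1 _ (h ⟨_, rfl⟩) (hτ.1 ⟨_, rfl⟩).2
    · exact (cob_pb (fun t => (h t).elim) (fun x t => ⟨0, z0_ne t ⟨0, rfl⟩⟩)
        (b4 τ ⟨fun x hx => (hτ.1 hx).1, hτ.2⟩)).symm
  have v3 : pb N.lab Far (z0 (w.T e) γ) - rs N.lab γ ∈
      ((N.Sb {x | l < N.s e x ∧ N.s e x < l'}).inf (On {x | R' < N.r x})).van k k 2 := fun τ hτ => by
    have h : range τ ⊆ Far := fun x hx => by
      have : R' < N.r x := hτ.2 hx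
      have := le_max_right D 0
      show R < N.r x
      linarith
    rw [Pi.sub_apply, sub_eq_zero, pb, if_pos h]
    refine if_pos ?_
    rintro _ ⟨i, rfl⟩
    exact (b1 _ (h ⟨_, rfl⟩) (hτ.1.1 ⟨_, rfl⟩).2).resolve_right (b2 _ (h ⟨_, rfl⟩) (hτ.1.1 ⟨_, rfl⟩).1)
  have e1 : bd k c = -bd k σ := eq_neg_of_add_eq_zero_right (by rw [← map_add, ← eb, bd_bd])
  rw [hu, map_add, map_add, eb, map_add,
    Sb.ev_eq_zero v (Sb.bd_mem (Sb.ch_mono Sb.inf_le_left a2)),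
    Sb.ev_eq_zero v (ch_mono (fun x hx => hx.1) (Sb.ch_mono Sb.inf_le_left a3)), zero_add, add_zero,
    Sb.ev_congr v2 a4, ← ev_bd, e1, map_neg, neg_inj,
    Sb.ev_congr v3 (Sml.mem_inf (Sb.bd_mem a3) a5)] at key
  exact key

end lev

section wall
open Ce Ch Md

variable {S K : Type} [DecidableEq S] [LinearOrder K] {Γ : SimpleGraph S} {col : S → K} {U : Finset S}

/-- Stokes with coefficients -/
theorem sum_dA {A : Type} [AddCommGroup A] {n : ℕ} (a : Finset S → A) (z : Finset S → ℤ) :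
    ∑ v ∈ Xn Γ U (n + 1), z v • dA col a v =
      ∑ t ∈ Xn Γ U n, pe z (dq Γ col U (single t 1)) • a t := by
  classical
  have e : ∀ t ∈ Xn Γ U n, pe z (dq Γ col U (single t 1)) =
      ∑ v ∈ Xn Γ U (n + 1), z v * dq Γ col U (single t 1) v := fun t ht => by
    rw [linearCombination_apply, sum_of_support_subset _ (s := Xn Γ U (n + 1)) (fun v hv => ?_) _
      (by simp)]
    · exact Finset.sum_congr rfl fun _ _ => mul_comm _ _
    obtain ⟨hc, s, hs, hn, rfl⟩ := dq_ne (mem_support_iff.1 hv)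
    exact mem_Xn.2 ⟨⟨hc, Finset.empty_subset _, Finset.insert_subset hs (mem_Xn.1 ht).1.2.2⟩,
      by rw [mem_ofPred_eq, Finset.card_insert_of_notMem hn, show t.card = n from (mem_Xn.1 ht).2]⟩
  rw [Finset.sum_congr (s₁ := Xn Γ U n) rfl fun t ht => by rw [e t ht, Finset.sum_smul],
    Finset.sum_comm (s := Xn Γ U n)]
  refine Finset.sum_congr rfl fun v hv => ?_
  have hv' := mem_Xn.1 hv
  simp only [mul_smul, ← Finset.smul_sum]
  congr 1
  simp only [dq_apply, if_pos hv'.1.1, Finset.inter_eq_left.2 hv'.1.2.2, Finset.sum_smul]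
  rw [Finset.sum_comm]
  refine Finset.sum_congr rfl fun s hs => ?_
  simp only [single_apply, mul_ite, mul_one, mul_zero, ite_smul, zero_smul, Finset.sum_ite_eq']
  exact (if_pos (mem_Xn.2 ⟨Q_erase hv'.1 s, by
    rw [mem_ofPred_eq, Finset.card_erase_of_mem hs, show v.card = n + 1 from hv'.2]; rfl⟩)).symm

variable {F Nd Ed : Type} [Group F] [MulAction F Nd] [MulAction F Ed] [Finite K] [DecidableEq Ed]
  {M : Mir S K F Nd Ed} {k : Type} [CommRing k]

theorem srt_of {n : ℕ} {t : Finset S} (h : t ∈ Xn M.Γ U (n + 1)) :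
    ∃ x : Tu S n, StrictMono (M.col ∘ x) ∧ im x = t :=
  exists_srt (fun _ ha _ hb e => Mir.col_inj (mem_Xn.1 h).1.1 ha hb e) (mem_Xn.1 h).2

theorem cq_of {t : Set S} (h : M.Γ.IsClique t) : Cq (En.Cl M.Γ) t := fun _ ha _ hb =>
  or_iff_not_imp_left.2 (h ha hb)

/-- **the degree of the wall cocycle** -/
theorem dg_wal2 (L : Loc M) {H : M.Cham} (hH : H.or = L.or) (e : Ed) {B : Set S}
    (h1 : ∀ a ∈ M.sp (M.src (L.op e)), a ∉ B) (h2 : ∀ a ∈ M.sp (M.src e), a ∈ M.sp (M.tgt e) ∨ a ∈ B)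
    {γ : Tu S 2 → k} (hγ : ∀ v ∈ CT (En.Cl M.Γ) (M.sp (M.tgt e)) 3, td k γ v = 0) :
    dg H (om (M.sp (M.tgt e)) B γ) = -p2 M e (L.ω e) fun a b c => γ ![a, b, c] := by
  classical
  have W := L.wal _ (M.ty_src e)
  let a : Finset S → k := fun t => linearCombination k (z0 (M.sp (M.tgt e)) γ) (Δ k M.col 2 t)
  rw [dg, finsum_mem_eq_sum_of_inter_support_eq
    (t := (Xn M.Γ (M.sp (M.src e)) 4).image fun t => (t, M.src e)),
    Finset.sum_image fun _ _ _ _ h => congrArg Prod.fst h]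
  · have e1 : ∀ t ∈ Xn M.Γ (M.sp (M.src e)) 4, (H.or (t, .inl (M.src e)) : k) *
        linearCombination k (om (M.sp (M.tgt e)) B γ) (Δ k M.col 3 t) =
        L.o (M.src e) t • dA M.col a t := fun t ht => by
      have ht' := mem_Xn.1 ht
      rw [hH, congrFun (L.or_vtx (M.ty_src e)) t, zsmul_eq_mul]
      congr 1
      obtain ⟨x, hx, rfl⟩ := srt_of ht
      rw [Δ_im hx, linearCombination_single, one_smul, om_eq hγ ⟨fun b hb => h2 b (ht'.1.2.2
        (coe_im x ▸ hb : b ∈ (im x : Set S))), coe_im x ▸ cq_of ht'.1.1⟩, td_eq, ← Δ_im hx,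
        tb_Δ (fun _ ha _ hb e => Mir.col_inj ht'.1.1 ha hb e) ht'.2, map_sum]
      refine Finset.sum_congr rfl fun s _ => ?_
      rw [map_smul, eps, Finset.filter_erase, Finset.erase_eq_of_notMem
        (s := (im x).filter fun t => M.col t < M.col s) fun h => lt_irrefl _ (Finset.mem_filter.1 h).2,
        zsmul_eq_mul]
      simp [a]
    rw [Finset.sum_congr rfl e1, sum_dA, p2, pA, ← Finset.sum_neg_distrib,
      ← Finset.sum_subset (s₁ := Xn M.Γ (M.sp (M.tgt e)) 3) (fun t ht => mem_Xn.2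
        ⟨Q_mono (L.wall e) subset_rfl (mem_Xn.1 ht).1, (mem_Xn.1 ht).2⟩) fun t ht hn => ?_,
      ← Finset.sum_subset (s₁ := Xn M.Γ (M.sp (M.tgt e)) 3) (Finset.filter_subset _ _) fun t _ hn => by
        rw [not_ne_iff.1 fun h => hn (mem_Xn.2 ((L.tor e).ω_sup t h)), zero_smul, neg_zero]]
    · refine Finset.sum_congr rfl fun t ht => ?_
      rw [eq_neg_of_add_eq_zero_left (W.st_bd e rfl t (mem_Xn.1 ht).1), neg_smul]
      obtain ⟨p, hp, q, hq, r, hr, -, -, -, l1, l2, rfl⟩ := X3 M.col_ne ht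
      have m : StrictMono (M.col ∘ ![p, q, r]) := Fin.strictMono_iff_lt_succ.2 fun i => by
        fin_cases i <;> assumption
      have i : im ![p, q, r] = {p, q, r} := by
        ext; simp [im, Fin.exists_fin_succ, eq_comm]
      rw [s2_tri _ l1 l2]
      simp only [a]
      rw [← i, Δ_im m, linearCombination_single, one_smul, z0, if_pos (by
        rw [← coe_im, i]; exact (mem_Xn.1 ht).1.2.2)]
    · obtain ⟨x, hx, rfl⟩ := srt_of ht
      simp only [a]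
      rw [Δ_im hx, linearCombination_single, one_smul, not_ne_iff.1 fun h => hn (mem_Xn.2
        ⟨⟨(mem_Xn.1 ht).1.1, Finset.empty_subset _, Finset.coe_subset.1 (coe_im x ▸ z0_ne h)⟩,
          (mem_Xn.1 ht).2⟩), smul_zero]
  · ext ⟨t, n⟩
    refine and_congr_left fun hp => ⟨fun hv => ?_, fun hv => ?_⟩
    · have h3 : L.or (t, .inl n) ≠ 0 := fun z => left_ne_zero_of_mul hp (by rw [hH, z, Int.cast_zero])
      have hn : ¬M.ty n := fun z => h3 (congrFun (L.or_mid z) t)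
      have h4 : t ∈ Xn M.Γ (M.sp n) 4 :=
        mem_Xn.2 ((L.wal n hn).o_sup t (congrFun (L.or_vtx hn) t ▸ h3))
      obtain ⟨x, hx, rfl⟩ := srt_of h4
      have h5 := right_ne_zero_of_mul hp
      rw [Δ_im hx, linearCombination_single, one_smul] at h5
      obtain ⟨⟨i, hi⟩, j, hj⟩ := om_ne h5
      have h6 := (mem_Xn.1 h4).1.2.2
      obtain rfl : n = M.src e := by
        by_contra c
        obtain ⟨e', rfl, c1, c2⟩ := L.w2 n _ _ hn (M.ty_src e) c (h6 (mem_im x j)) (L.wall e hj)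
        rcases L.tgt_eq _ _ (L.w1 _ _ _ hj (c2 (Finset.mem_inter.2 ⟨h6 (mem_im x j), L.wall e hj⟩)))
          with rfl | rfl
        exacts [c rfl, h1 _ (h6 (mem_im x i)) hi]
      exact Finset.mem_coe.2 (Finset.mem_image_of_mem _ h4)
    · obtain ⟨u, hu, h⟩ := Finset.mem_image.1 hv
      obtain ⟨rfl, rfl⟩ := Prod.ext_iff.1 h
      exact ⟨(mem_Xn.1 hu).1.1, (mem_Xn.1 hu).1.2.2, Finset.disjoint_empty_right _⟩

end wall

end Crest.Agent.N255.Dg
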